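import Mathlib

/-!
Differential operators in the sense of Grothendieck; local freeness of the tangent sheaf.
-/

namespace Vale.Agent.N266B

open AlgebraicGeometry CategoryTheory

/-- Differential operators of order at most `n` on the `k`-algebra `A` (Grothendieck): order
zero means commuting with all multiplications; order at most `n + 1` means that all commutators
with multiplications have order at most `n`. -/
def IsDiffOp (k : Type*) {A : Type*} [CommRing k] [CommRing A] [Algebra k A] :
    ℕ → Module.End k A → Prop
  | 0, P => ∀ a : A, P * LinearMap.mulLeft k a = LinearMap.mulLeft k a * P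
  | n + 1, P => ∀ a : A, IsDiffOp k n (P * LinearMap.mulLeft k a - LinearMap.mulLeft k a * P)

/-- The products of at most `n` derivations of `A`. -/
def derProducts (k A : Type*) [CommRing k] [CommRing A] [Algebra k A] (n : ℕ) :
    Set (Module.End k A) :=
  {P | ∃ L : List (Derivation k A A), L.length ≤ n ∧ P = (L.map Derivation.toLinearMap).prod}

/-- The hypothesis of Nakai's conjecture: every differential operator on `A` lies in the
`k`-algebra generated by the multiplications and the derivations. -/
def GeneratedByDerivations (k A : Type*) [CommRing k] [CommRing A] [Algebra k A] : Prop :=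
  ∀ (n : ℕ) (P : Module.End k A), IsDiffOp k n P →
    P ∈ Algebra.adjoin k (Set.range (LinearMap.mulLeft k : A → Module.End k A) ∪
      Set.range (Derivation.toLinearMap : Derivation k A A → Module.End k A))

/-- The differential operators on `A` behave as on a smooth affine variety of dimension `d` with
trivial tangent bundle: for every `n`, the operators of order at most `n` are the `A`-linear
combinations of products of at most `n` derivations, and they have an `A`-basis with
`(n + d).choose d` elements. -/
def OperatorsAsIfSmooth (k A : Type*) [CommRing k] [CommRing A] [Algebra k A] (d : ℕ) : Prop :=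
  ∀ n : ℕ, (∀ P : Module.End k A, IsDiffOp k n P ↔ P ∈ Submodule.span A (derProducts k A n)) ∧
    ∃ v : Fin ((n + d).choose d) → Module.End k A, LinearIndependent A v ∧
      ∀ P, IsDiffOp k n P ↔ P ∈ Submodule.span A (Set.range v)

/-- The tangent sheaf of the complex scheme `f : X ⟶ Spec ℂ` is locally free: every point has an
affine open neighbourhood `U` such that the `ℂ`-derivations of the ring of sections over `U` form
a free module. -/
def TangentLocallyFree {X : Scheme} (f : X ⟶ Spec (CommRingCat.of ℂ)) : Prop :=
  ∀ x : X, ∃ U : X.Opens, IsAffineOpen U ∧ x ∈ U ∧
    letI : Algebra ℂ Γ(X, U) :=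
      ((Scheme.ΓSpecIso (CommRingCat.of ℂ)).inv ≫ f.appLE ⊤ U le_top).hom.toAlgebra
    Module.Free Γ(X, U) (Derivation ℂ Γ(X, U) Γ(X, U))

end Vale.Agent.N266B
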