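import Vale.Agent.N266B.Stable
import Vale.Agent.N266.Gen
import Vale.Agent.P266.H114.KMain

/-!
P266 (helper70): the examples and their differential operators.
-/

set_option linter.all false

universe u

namespace Vale.Agent.N266B

open Polynomial Vale.Agent.P266 Vale.Agent.P266.H114

/-- the properties of the examples -/
def ExS (k : Type u) [Field k] (d : ℕ) : Prop :=
  ∃ (A : Type u) (_ : CommRing A) (_ : IsDomain A) (_ : Algebra k A),
    Algebra.FiniteType k A ∧ IsIntegrallyClosed A ∧ ringKrullDim A = d ∧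
    Module.Free A (Derivation k A A) ∧ Module.finrank A (Derivation k A A) = d ∧
    ¬ IsRegularRing A ∧ ¬ Algebra.Smooth k A ∧
    ∃ I : Ideal A, I ≠ ⊥ ∧ I ≠ ⊤ ∧ ∀ D : Derivation k A A, ∀ a ∈ I, D a ∈ I

theorem stable_polynomial {k A : Type*} [CommRing k] [CommRing A] [Algebra k A] (I : Ideal A)
    (h : ∀ D : Derivation k A A, ∀ a ∈ I, D a ∈ I) (D : Derivation k A[X] A[X]) (p : A[X])
    (hp : p ∈ I.map (C : A →+* A[X])) : D p ∈ I.map (C : A →+* A[X]) := by
  rw [Ideal.map] at hp
  induction hp using Submodule.span_induction with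
  | mem x hx =>
    obtain ⟨a, ha, rfl⟩ := hx
    rw [Ideal.mem_map_C_iff]
    intro n
    rw [← coDer_apply]
    exact h _ a ha
  | zero =>
    rw [map_zero]
    exact zero_mem _
  | add x y _ _ hx hy =>
    rw [map_add]
    exact add_mem hx hy
  | smul c x hx0 hx =>
    rw [smul_eq_mul, Derivation.leibniz, smul_eq_mul, smul_eq_mul]
    exact add_mem (Ideal.mul_mem_left _ _ hx) (Ideal.mul_mem_right _ _ hx0)

theorem ExS.succ {k : Type u} [Field k] {d : ℕ} (h : ExS k d) : ExS k (d + 1) := by
  obtain ⟨A, hA, hdom, halg, hft, hic, hdim, hfree, hrk, hreg, hsm, I, h0, h1, hI⟩ := h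
  have hN : IsNoetherianRing A := Algebra.FiniteType.isNoetherianRing k A
  have hfin : Module.Finite A (Derivation k A A) := Lip.finite_derivation k A
  obtain ⟨g1, g2⟩ := free_derivation_polynomial k A
  refine ⟨A[X], inferInstance, inferInstance, inferInstance,
    Algebra.FiniteType.trans (S := A) inferInstance inferInstance, inferInstance, ?_, g1, ?_,
    fun h => hreg (isRegularRing_of_polynomial h), fun h => hsm (smooth_of_polynomial k A h),
    I.map C, fun h => h0 ?_, fun h => h1 ?_, stable_polynomial I hI⟩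
  · rw [Polynomial.ringKrullDim_of_isNoetherianRing, hdim]
    push_cast
    rfl
  · rw [g2, hrk]
  · exact (Ideal.map_eq_bot_iff_of_injective C_injective).1 h
  · rw [Ideal.eq_top_iff_one] at h ⊢
    simpa using Ideal.mem_map_C_iff.1 h 0

theorem exS_two (k : Type u) [Field k] [CharZero k] : ExS k 2 := by
  obtain ⟨A, hA, hCA, hdom, hft, hfree, hnp, hnr, hdim, hrk, hic⟩ := K.main (𝕜 := k)
  have hN : IsNoetherianRing A := Algebra.FiniteType.isNoetherianRing k A
  have hfin : Module.Finite A (Derivation k A A) := Lip.finite_derivation k A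
  refine ⟨A, hA, hdom, hCA, hft, hic, ?_, hfree, hrk, hnr, fun hs => hnp inferInstance,
    exists_stable (Module.finBasisOfFinrankEq A (Derivation k A A) hrk) hnp⟩
  exact le_antisymm hdim (two_le_ringKrullDim A hnr)

theorem exS (k : Type u) [Field k] [CharZero k] : ∀ d : ℕ, 2 ≤ d → ExS k d := by
  intro d hd
  induction d, hd using Nat.le_induction with
  | base => exact exS_two k
  | succ d _ ih => exact ih.succ

section

variable {k A : Type*} [CommRing k] [CommRing A] [Algebra k A]

theorem stable_span (I : Ideal A) (h : ∀ D : Derivation k A A, ∀ a ∈ I, D a ∈ I) (n : ℕ)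
    (P : Module.End k A) (hP : P ∈ Submodule.span A (derProducts k A n)) : ∀ a ∈ I, P a ∈ I := by
  induction hP using Submodule.span_induction with
  | mem x hx =>
    obtain ⟨L, -, rfl⟩ := hx
    induction L with
    | nil => exact fun a ha => ha
    | cons D L ih =>
      intro a ha
      rw [List.map_cons, List.prod_cons]
      exact h D _ (ih a ha)
  | zero => exact fun a _ => zero_mem _
  | add x y _ _ hx hy => exact fun a ha => add_mem (hx a ha) (hy a ha)
  | smul c x _ hx => exact fun a ha => Ideal.mul_mem_left _ c (hx a ha)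

theorem adjoin_span (n : ℕ) (P : Module.End k A) (hP : P ∈ Submodule.span A (derProducts k A n)) :
    P ∈ Algebra.adjoin k (Set.range (LinearMap.mulLeft k : A → Module.End k A) ∪
      Set.range (Derivation.toLinearMap : Derivation k A A → Module.End k A)) := by
  induction hP using Submodule.span_induction with
  | mem x hx =>
    obtain ⟨L, -, rfl⟩ := hx
    refine list_prod_mem fun x hx => ?_
    obtain ⟨D, -, rfl⟩ := List.mem_map.1 hx
    exact Algebra.subset_adjoin (Or.inr ⟨D, rfl⟩)
  | zero => exact zero_mem _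
  | add x y _ _ hx hy => exact add_mem hx hy
  | smul c x _ hx =>
    rw [smul_eq_Lm]
    exact mul_mem (Algebra.subset_adjoin (Or.inl ⟨c, rfl⟩)) hx

end

theorem fac_unit (k A : Type*) [Field k] [CharZero k] [CommRing A] [Algebra k A] (n : ℕ) :
    IsUnit (n.factorial : A) := by
  have h : IsUnit (n.factorial : k) := (Nat.cast_ne_zero.2 n.factorial_ne_zero).isUnit
  simpa using h.map (algebraMap k A)

theorem iff_span {k A : Type*} [Field k] [CharZero k] [CommRing A] [Algebra k A] {d : ℕ}
    (b : Module.Basis (Fin d) A (Derivation k A A)) (n : ℕ) (P : Module.End k A) :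
    IsDiffOp k n P ↔ P ∈ Submodule.span A (derProducts k A n) := by
  rw [isDiffOp_iff, K_eq_span b (fac_unit k A)]

theorem basis_ops {k A : Type*} [Field k] [CharZero k] [CommRing A] [Algebra k A] {d : ℕ}
    (b : Module.Basis (Fin d) A (Derivation k A A)) (n : ℕ) :
    ∃ v : Fin ((n + d).choose d) → Module.End k A, LinearIndependent A v ∧
      ∀ P, IsDiffOp k n P ↔ P ∈ Submodule.span A (Set.range v) := by
  obtain ⟨α, _, v, h1, h2, h3⟩ := K_basis b (fac_unit k A) (n + 1)
  rw [Fintype.card_fin, Nat.sum_range_multichoose] at h1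
  let e := (Fintype.equivFinOfCardEq h1).symm
  refine ⟨v ∘ e, h2.comp _ e.injective, fun P => ?_⟩
  rw [isDiffOp_iff, ← h3, e.surjective.range_comp]

open AlgebraicGeometry CategoryTheory in
theorem scheme_form : ¬ ∀ (X : Scheme.{0}) (f : X ⟶ Spec (CommRingCat.of ℂ)) [IsIntegral X]
    [LocallyOfFiniteType f] [QuasiCompact f] [IsSeparated f], TangentLocallyFree f → Smooth f := by
  intro h
  obtain ⟨A, _, _, _, hft, -, -, hfree, hrk, -, hsm⟩ := ex_two
  let f : Spec (CommRingCat.of A) ⟶ Spec (CommRingCat.of ℂ) :=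
    Spec.map (CommRingCat.ofHom (algebraMap ℂ A))
  have h1 : LocallyOfFiniteType f := by
    rw [HasRingHomProperty.Spec_iff (P := @LocallyOfFiniteType)]
    exact RingHom.finiteType_algebraMap.2 hft
  have h2 := h (Spec (CommRingCat.of A)) f ?_
  · rw [HasRingHomProperty.Spec_iff (P := @Smooth)] at h2
    exact hsm (RingHom.smooth_algebraMap.1 h2)
  · intro x
    refine ⟨⊤, isAffineOpen_top _, trivial, ?_⟩
    letI : Algebra ℂ Γ(Spec (CommRingCat.of A), ⊤) :=
      ((Scheme.ΓSpecIso (CommRingCat.of ℂ)).inv ≫ f.appLE ⊤ ⊤ le_top).hom.toAlgebra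
    let e : A ≃+* Γ(Spec (CommRingCat.of A), ⊤) :=
      (Scheme.ΓSpecIso (CommRingCat.of A)).symm.commRingCatIsoToRingEquiv
    letI : Algebra A Γ(Spec (CommRingCat.of A), ⊤) := e.toRingHom.toAlgebra
    have : IsScalarTower ℂ A Γ(Spec (CommRingCat.of A), ⊤) := by
      refine IsScalarTower.of_algebraMap_eq fun c => ?_
      have h3 := Scheme.ΓSpecIso_inv_naturality (CommRingCat.ofHom (algebraMap ℂ A))
      have h4 : f.appLE ⊤ ⊤ le_top = f.appTop := by
        simp only [Scheme.Hom.appLE, Scheme.Hom.appTop, homOfLE_refl, op_id,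
          CategoryTheory.Functor.map_id]
        exact Category.comp_id _
      change ((Scheme.ΓSpecIso (CommRingCat.of ℂ)).inv ≫ f.appLE ⊤ ⊤ le_top).hom c =
        (CommRingCat.ofHom (algebraMap ℂ A) ≫ (Scheme.ΓSpecIso (CommRingCat.of A)).inv).hom c
      rw [h3, h4]
    let e' : A ≃ₐ[A] Γ(Spec (CommRingCat.of A), ⊤) := AlgEquiv.ofRingEquiv (f := e) fun _ => rfl
    have : Algebra.FormallyEtale A Γ(Spec (CommRingCat.of A), ⊤) :=
      Algebra.FormallyEtale.of_equiv e'
    have : Module.Flat A Γ(Spec (CommRingCat.of A), ⊤) :=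
      Module.Flat.of_linearEquiv e'.symm.toLinearEquiv
    have : Nontrivial Γ(Spec (CommRingCat.of A), ⊤) := e.symm.toEquiv.nontrivial
    exact (N266.der_free hrk N266.Ext.of_etale).1

end Vale.Agent.N266B
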