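import Vale.Agent.N266B.Defs

/-!
P266 (helper70): differential operators when the derivation module is free.
-/

set_option linter.all false

namespace Vale.Agent.N266B

open TensorProduct Finset

variable (k : Type*) {A : Type*} [CommRing k] [CommRing A] [Algebra k A]

/-- multiplication operator -/
abbrev Lm (a : A) : Module.End k A := LinearMap.mulLeft k a

theorem Lm_mul (a b : A) : Lm k (a * b) = Lm k a * Lm k b := by
  ext x
  simp [mul_assoc]

theorem Lm_comm (a b : A) : Lm k a * Lm k b = Lm k b * Lm k a := by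
  rw [← Lm_mul, ← Lm_mul, mul_comm]

theorem smul_eq_Lm (a : A) (P : Module.End k A) : a • P = Lm k a * P := by
  ext x
  simp

variable (A) in
/-- left multiplication -/
noncomputable def lA : A →ₐ[k] Module.End k (Module.End k A) :=
  (Algebra.lmul k (Module.End k A)).comp (Algebra.lmul k A)

variable (A) in
/-- right multiplication -/
noncomputable def rA : A →ₐ[k] Module.End k (Module.End k A) where
  toFun a := LinearMap.mulRight k (Lm k a)
  map_one' := by
    ext P x
    simp
  map_mul' a b := by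
    ext P x
    simp [mul_left_comm, mul_assoc]
  map_zero' := by
    ext P x
    simp
  map_add' a b := by
    ext P x
    simp [add_mul]
  commutes' c := by
    ext P x
    rw [Algebra.algebraMap_eq_smul_one, Algebra.algebraMap_eq_smul_one]
    simp

theorem lA_apply (a : A) (P : Module.End k A) : lA k A a P = Lm k a * P := rfl

theorem rA_apply (a : A) (P : Module.End k A) : rA k A a P = P * Lm k a := rfl

theorem lA_rA (a b : A) : Commute (lA k A a) (rA k A b) := by
  refine LinearMap.ext fun P => ?_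
  change Lm k a * (P * Lm k b) = Lm k a * P * Lm k b
  rw [mul_assoc]

variable (A) in
/-- the two-sided action -/
noncomputable def rho : A ⊗[k] A →ₐ[k] Module.End k (Module.End k A) :=
  Algebra.TensorProduct.lift (lA k A) (rA k A) (lA_rA k)

theorem rho_tmul (a b : A) (P : Module.End k A) :
    rho k A (a ⊗ₜ b) P = Lm k a * (P * Lm k b) := by
  unfold rho
  rw [Algebra.TensorProduct.lift_tmul]
  rfl

/-- the generators of the diagonal ideal -/
noncomputable def dl (a : A) : A ⊗[k] A := 1 ⊗ₜ a - a ⊗ₜ 1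

theorem Lm_one : Lm k (1 : A) = 1 := by
  ext x
  simp

theorem rho_dl (a : A) (P : Module.End k A) :
    rho k A (dl k a) P = P * Lm k a - Lm k a * P := by
  unfold dl
  rw [map_sub, LinearMap.sub_apply, rho_tmul, rho_tmul, Lm_one, one_mul, mul_one]

theorem rho_mul (s t : A ⊗[k] A) (P : Module.End k A) :
    rho k A (s * t) P = rho k A s (rho k A t P) := by
  rw [map_mul]
  rfl

theorem rho_smul (t : A ⊗[k] A) (c : A) (P : Module.End k A) :
    rho k A t (c • P) = c • rho k A t P := by
  have h : ∀ Q : Module.End k A, c • Q = rho k A (c ⊗ₜ 1) Q := fun Q => by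
    rw [rho_tmul, Lm_one, mul_one, smul_eq_Lm]
  rw [h, h, ← rho_mul, ← rho_mul, mul_comm]

variable (A) in
/-- the diagonal ideal -/
noncomputable def dI : Ideal (A ⊗[k] A) := Ideal.span (Set.range (dl k : A → A ⊗[k] A))

theorem dl_mem (a : A) : dl k a ∈ dI k A := Ideal.subset_span ⟨a, rfl⟩

variable (A) in
/-- operators of order less than `n` -/
noncomputable def K (n : ℕ) : Submodule A (Module.End k A) where
  carrier := {P | ∀ t ∈ dI k A ^ n, rho k A t P = 0}
  add_mem' := fun {P Q} hP hQ t ht => by rw [map_add, hP t ht, hQ t ht, add_zero]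
  zero_mem' := fun t _ => map_zero _
  smul_mem' := fun c P hP t ht => by rw [rho_smul, hP t ht, smul_zero]

variable {k}

theorem mem_K {n : ℕ} {P : Module.End k A} :
    P ∈ K k A n ↔ ∀ t ∈ dI k A ^ n, rho k A t P = 0 := Iff.rfl

theorem mem_K_zero {P : Module.End k A} : P ∈ K k A 0 ↔ P = 0 := by
  constructor
  · intro h
    have := h 1 (by simp)
    simpa using this
  · rintro rfl
    exact zero_mem _

theorem mem_K_succ {n : ℕ} {P : Module.End k A} :
    P ∈ K k A (n + 1) ↔ ∀ a, rho k A (dl k a) P ∈ K k A n := by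
  constructor
  · intro h a t ht
    rw [← rho_mul]
    refine h _ ?_
    rw [pow_succ]
    exact Ideal.mul_mem_mul ht (dl_mem k a)
  · intro h t ht
    rw [pow_succ] at ht
    refine Submodule.mul_induction_on ht (fun u hu v hv => ?_) fun x y hx hy => ?_
    · induction hv using Submodule.span_induction generalizing u with
      | mem v hv =>
        obtain ⟨a, rfl⟩ := hv
        rw [rho_mul]
        exact h a u hu
      | zero => simp
      | add x y _ _ hx hy => rw [mul_add, map_add, LinearMap.add_apply, hx u hu, hy u hu, add_zero]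
      | smul c x _ hx =>
        rw [smul_eq_mul, ← mul_assoc]
        exact hx _ (Ideal.mul_mem_right _ _ hu)
    · rw [map_add, LinearMap.add_apply, hx, hy, add_zero]

theorem isDiffOp_iff : ∀ (n : ℕ) (P : Module.End k A), IsDiffOp k n P ↔ P ∈ K k A (n + 1)
  | 0, P => by
    rw [mem_K_succ]
    refine forall_congr' fun a => ?_
    rw [mem_K_zero, rho_dl, sub_eq_zero]
  | n + 1, P => by
    rw [mem_K_succ]
    refine forall_congr' fun a => ?_
    rw [isDiffOp_iff n, rho_dl]

theorem K_mono {m n : ℕ} (h : m ≤ n) : K k A m ≤ K k A n := fun _ hP t ht =>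
  hP t (Ideal.pow_le_pow_right h ht)

theorem rho_mem {n : ℕ} {P : Module.End k A} (hP : P ∈ K k A n) (s : A ⊗[k] A) :
    rho k A s P ∈ K k A n := fun t ht => by
  rw [← rho_mul, mul_comm, rho_mul, hP t ht, map_zero]

theorem mul_Lm_mem {n : ℕ} {P : Module.End k A} (hP : P ∈ K k A n) (c : A) :
    P * Lm k c ∈ K k A n := by
  have := rho_mem hP (1 ⊗ₜ c)
  rwa [rho_tmul, Lm_one, one_mul] at this

theorem Lm_mem (c : A) : Lm k c ∈ K k A 1 := by
  rw [mem_K_succ]
  intro a
  rw [mem_K_zero, rho_dl, Lm_comm, sub_self]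

theorem eq_Lm {P : Module.End k A} (hP : P ∈ K k A 1) : P = Lm k (P 1) := by
  rw [mem_K_succ] at hP
  ext x
  have h := hP x
  rw [mem_K_zero, rho_dl, sub_eq_zero] at h
  have h2 := LinearMap.congr_fun h 1
  simp only [Module.End.mul_apply, LinearMap.mulLeft_apply, mul_one] at h2 ⊢
  rw [h2, mul_comm]

theorem der_comm (D : Derivation k A A) (a : A) :
    D.toLinearMap * Lm k a - Lm k a * D.toLinearMap = Lm k (D a) := by
  ext x
  simp only [LinearMap.sub_apply, Module.End.mul_apply, LinearMap.mulLeft_apply,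
    Derivation.coeFn_coe, Derivation.leibniz, smul_eq_mul]
  ring

theorem rho_dl_mul (a : A) (Q : Module.End k A) (D : Derivation k A A) :
    rho k A (dl k a) (Q * D.toLinearMap) =
      rho k A (dl k a) Q * D.toLinearMap + Q * Lm k (D a) := by
  rw [rho_dl, rho_dl, ← der_comm, mul_sub, sub_mul]
  simp only [mul_assoc]
  abel

theorem mul_der_mem (D : Derivation k A A) : ∀ (n : ℕ) {Q : Module.End k A}, Q ∈ K k A n →
    Q * D.toLinearMap ∈ K k A (n + 1)
  | 0, Q, hQ => by
    rw [mem_K_zero.1 hQ, zero_mul]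
    exact zero_mem _
  | n + 1, Q, hQ => by
    rw [mem_K_succ]
    intro a
    rw [rho_dl_mul]
    exact add_mem (mul_der_mem D n (mem_K_succ.1 hQ a)) (mul_Lm_mem hQ _)

theorem rho_mul_Lm (t : A ⊗[k] A) (Q : Module.End k A) (c : A) :
    rho k A t (Q * Lm k c) = rho k A t Q * Lm k c := by
  have h : ∀ Q : Module.End k A, Q * Lm k c = rho k A (1 ⊗ₜ c) Q := fun Q => by
    rw [rho_tmul, Lm_one, one_mul]
  rw [h, h, ← rho_mul, ← rho_mul, mul_comm]

theorem rho_prod_mul {ι : Type*} [DecidableEq ι] (x : ι → A) (D : Derivation k A A)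
    (s : Finset ι) : ∀ Q : Module.End k A,
    rho k A (∏ j ∈ s, dl k (x j)) (Q * D.toLinearMap) =
      rho k A (∏ j ∈ s, dl k (x j)) Q * D.toLinearMap +
        ∑ j ∈ s, rho k A (∏ l ∈ s.erase j, dl k (x l)) Q * Lm k (D (x j)) := by
  induction s using Finset.induction_on with
  | empty => intro Q; simp
  | insert i s hi ih =>
    intro Q
    rw [Finset.prod_insert hi, mul_comm (dl k (x i)), rho_mul, rho_dl_mul, map_add, ih,
      rho_mul_Lm, Finset.sum_insert hi, Finset.erase_insert hi, rho_mul, add_assoc]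
    congr 1
    rw [add_comm]
    congr 1
    refine Finset.sum_congr rfl fun j hj => ?_
    have hij : i ≠ j := fun h => hi (h ▸ hj)
    rw [Finset.erase_insert_of_ne hij,
      Finset.prod_insert (fun h => hi (Finset.mem_of_mem_erase h)), mul_comm (dl k (x i)),
      rho_mul]

theorem prod_mem {ι : Type*} (x : ι → A) (s : Finset ι) :
    ∏ j ∈ s, dl k (x j) ∈ dI k A ^ s.card := by
  rw [← Finset.prod_const]
  exact Ideal.prod_mem_prod fun j _ => dl_mem k (x j)

theorem rho_prod_mem {ι : Type*} (x : ι → A) (s : Finset ι) {m : ℕ} {P : Module.End k A}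
    (hP : P ∈ K k A (m + s.card)) : rho k A (∏ j ∈ s, dl k (x j)) P ∈ K k A m := by
  intro t ht
  rw [← rho_mul]
  refine hP _ ?_
  rw [pow_add]
  exact Ideal.mul_mem_mul ht (prod_mem x s)

theorem mem_K_of_prod : ∀ (n : ℕ) (P : Module.End k A),
    (∀ x : Fin n → A, rho k A (∏ j, dl k (x j)) P = 0) → P ∈ K k A n
  | 0, P, h => by
    rw [mem_K_zero]
    simpa using h Fin.elim0
  | n + 1, P, h => by
    rw [mem_K_succ]
    intro a
    refine mem_K_of_prod n _ fun x => ?_
    have h1 := h (Fin.cons a x)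
    rw [Fin.prod_univ_succ, mul_comm, rho_mul] at h1
    simpa using h1

/-- the symbol -/
noncomputable def sym {n : ℕ} (P : Module.End k A) (x : Fin n → A) : A :=
  rho k A (∏ j, dl k (x j)) P 1

theorem rho_eq_sym {n : ℕ} {P : Module.End k A} (hP : P ∈ K k A (n + 1)) (x : Fin n → A) :
    rho k A (∏ j, dl k (x j)) P = Lm k (sym P x) := by
  refine eq_Lm (rho_prod_mem x univ ?_)
  rwa [Finset.card_univ, Fintype.card_fin, add_comm]

theorem mem_K_of_sym {n : ℕ} {P : Module.End k A} (hP : P ∈ K k A (n + 1))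
    (h : ∀ x : Fin n → A, sym P x = 0) : P ∈ K k A n := by
  refine mem_K_of_prod n P fun x => ?_
  rw [rho_eq_sym hP, h x]
  ext y
  simp

theorem sym_eq_zero {n : ℕ} {P : Module.End k A} (hP : P ∈ K k A n) (x : Fin n → A) :
    sym P x = 0 := by
  unfold sym
  have h := prod_mem (k := k) x univ
  rw [Finset.card_univ, Fintype.card_fin] at h
  rw [hP _ h]
  rfl

theorem sym_perm {n : ℕ} (P : Module.End k A) (x : Fin n → A) (σ : Equiv.Perm (Fin n)) :
    sym P (x ∘ σ) = sym P x := by
  unfold sym
  rw [← Equiv.prod_comp σ fun j => dl k (x j)]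
  rfl

/-- an operator of order at most one gives a derivation -/
noncomputable def derOf (Q : Module.End k A) (hQ : Q ∈ K k A 2) : Derivation k A A :=
  Derivation.mk' (Q - Lm k (Q 1)) fun a b => by
    have h1 := eq_Lm (mem_K_succ.1 hQ a)
    rw [rho_dl] at h1
    have h2 := LinearMap.congr_fun h1 b
    simp only [LinearMap.sub_apply, Module.End.mul_apply, LinearMap.mulLeft_apply, mul_one,
      smul_eq_mul] at h2 ⊢
    linear_combination h2

theorem sym_der {n : ℕ} {P : Module.End k A} (hP : P ∈ K k A (n + 1)) (x : Fin n → A)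
    (i : Fin n) : ∃ D : Derivation k A A, ∀ a, sym P (Function.update x i a) = D a := by
  have h1 : rho k A (∏ j ∈ univ.erase i, dl k (x j)) P ∈ K k A 2 := by
    refine rho_prod_mem x _ ?_
    rw [Finset.card_erase_of_mem (mem_univ i), Finset.card_univ, Fintype.card_fin]
    have := i.pos
    rwa [show 2 + (n - 1) = n + 1 by omega]
  refine ⟨derOf _ h1, fun a => ?_⟩
  unfold sym
  rw [← Finset.mul_prod_erase _ _ (mem_univ i), Function.update_self, rho_mul, rho_dl]
  have h2 : ∏ j ∈ univ.erase i, dl k (Function.update x i a j) = ∏ j ∈ univ.erase i, dl k (x j) :=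
    Finset.prod_congr rfl fun j hj => by rw [Function.update_of_ne (Finset.ne_of_mem_erase hj)]
  rw [h2]
  change _ = (rho k A (∏ j ∈ univ.erase i, dl k (x j)) P -
    Lm k (rho k A (∏ j ∈ univ.erase i, dl k (x j)) P 1)) a
  simp only [LinearMap.sub_apply, Module.End.mul_apply, LinearMap.mulLeft_apply, mul_one]
  ring

end Vale.Agent.N266B
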