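import Vale.Agent.N266B.Ops

/-!
P266 (helper70): symbols, and a basis of the differential operators.
-/

set_option linter.all false

namespace Vale.Agent.N266B

open TensorProduct Finset

variable {k : Type*} {A : Type*} [CommRing k] [CommRing A] [Algebra k A]
variable {ι : Type} [Fintype ι] [DecidableEq ι]

theorem der_sum_apply {κ : Type*} (t : Finset κ) (c : κ → A) (D : κ → Derivation k A A) (y : A) :
    (∑ i ∈ t, c i • D i) y = ∑ i ∈ t, c i * D i y := by
  classical
  induction t using Finset.induction_on with
  | empty => rfl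
  | insert a t ha ih =>
    rw [Finset.sum_insert ha, Finset.sum_insert ha, Derivation.add_apply, ih]
    rfl

/-- the multiderivation with coefficients `c` -/
noncomputable def th (D : ι → Derivation k A A) {n : ℕ} (c : (Fin n → ι) → A) (x : Fin n → A) :
    A := ∑ s, c s * ∏ j, D (s j) (x j)

theorem th_succAbove (D : ι → Derivation k A A) {n : ℕ} (c : (Fin (n + 1) → ι) → A)
    (x : Fin (n + 1) → A) (j : Fin (n + 1)) :
    th D c x = ∑ i, D i (x j) *
      th D (fun s => c (j.insertNth i s)) (fun l => x (j.succAbove l)) := by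
  unfold th
  rw [← (Fin.insertNthEquiv (fun _ => ι) j).sum_comp, Fintype.sum_prod_type]
  refine Finset.sum_congr rfl fun i _ => ?_
  rw [Finset.mul_sum]
  refine Finset.sum_congr rfl fun s _ => ?_
  rw [Fin.prod_univ_succAbove _ j]
  have e : (Fin.insertNthEquiv (fun _ => ι) j) (i, s) = j.insertNth i s := rfl
  simp only [e, Fin.insertNth_apply_same, Fin.insertNth_apply_succAbove]
  ring

theorem th_cons (D : ι → Derivation k A A) {n : ℕ} (c : (Fin (n + 1) → ι) → A) (a : A)
    (x : Fin n → A) :
    th D c (Fin.cons a x) = ∑ i, D i a * th D (fun s => c (Fin.cons i s)) x := by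
  rw [th_succAbove D c _ 0]
  simp only [Fin.insertNth_zero', Fin.cons_zero, Fin.succAbove_zero, Fin.cons_succ]

theorem th_uniq (b : Module.Basis ι A (Derivation k A A)) : ∀ (n : ℕ) (c : (Fin n → ι) → A),
    (∀ x, th b c x = 0) → c = 0
  | 0, c, h => by
    funext s
    have h1 := h Fin.elim0
    unfold th at h1
    rw [Fintype.sum_unique] at h1
    simp only [Finset.univ_eq_empty, Finset.prod_empty, mul_one] at h1
    rw [Subsingleton.elim s default]
    exact h1
  | n + 1, c, h => by
    have h1 : ∀ i, (fun s => c (Fin.cons i s)) = 0 := fun i => by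
      refine th_uniq b n _ fun x => ?_
      refine Fintype.linearIndependent_iff.1 b.linearIndependent
        (fun i => th b (fun s => c (Fin.cons i s)) x) (Derivation.ext fun a => ?_) i
      rw [der_sum_apply]
      have h2 := h (Fin.cons a x)
      rw [th_cons] at h2
      refine Eq.trans (Finset.sum_congr rfl fun i _ => mul_comm _ _) h2
    funext s
    have h3 := congrFun (h1 (s 0)) (Fin.tail s)
    rwa [Fin.cons_self_tail] at h3

theorem th_exists (b : Module.Basis ι A (Derivation k A A)) : ∀ (n : ℕ) (θ : (Fin n → A) → A),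
    (∀ x i, ∃ D : Derivation k A A, ∀ a, θ (Function.update x i a) = D a) →
    ∃ c : (Fin n → ι) → A, ∀ x, θ x = th b c x
  | 0, θ, _ => by
    refine ⟨fun _ => θ Fin.elim0, fun x => ?_⟩
    unfold th
    rw [Fintype.sum_unique, Subsingleton.elim x Fin.elim0]
    simp
  | n + 1, θ, h => by
    have h1 : ∀ x : Fin n → A, ∃ D : Derivation k A A, ∀ a, θ (Fin.cons a x) = D a := by
      intro x
      obtain ⟨D, hD⟩ := h (Fin.cons 0 x) 0
      exact ⟨D, fun a => by rw [← hD a, Fin.update_cons_zero]⟩
    choose D hD using h1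
    have h2 : ∀ i, ∃ c : (Fin n → ι) → A, ∀ x, b.repr (D x) i = th b c x := by
      intro i
      refine th_exists b n (fun x => b.repr (D x) i) fun x j => ?_
      have h3 : ∀ a, ∃ E : Derivation k A A, ∀ a', D (Function.update x j a') a = E a' := by
        intro a
        obtain ⟨E, hE⟩ := h (Fin.cons a x) j.succ
        exact ⟨E, fun a' => by rw [← hD, ← hE a', Fin.cons_update]⟩
      choose E hE using h3
      let δ : Derivation k A (Derivation k A A) := Derivation.mk'
        { toFun := fun a' => D (Function.update x j a')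
          map_add' := fun u v => Derivation.ext fun a => by
            rw [Derivation.add_apply, hE, hE, hE, map_add]
          map_smul' := fun c u => Derivation.ext fun a => by
            rw [RingHom.id_apply, Derivation.smul_apply, hE, hE, Derivation.map_smul] }
        fun u v => Derivation.ext fun a => by
          change D (Function.update x j (u * v)) a =
            (u • D (Function.update x j v) + v • D (Function.update x j u)) a
          rw [Derivation.add_apply, Derivation.smul_apply, Derivation.smul_apply, hE, hE, hE,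
            Derivation.leibniz]
      exact ⟨(b.coord i).compDer δ, fun a => rfl⟩
    choose c hc using h2
    refine ⟨fun s => c (s 0) (Fin.tail s), fun x => ?_⟩
    rw [← Fin.cons_self_tail x, th_cons, hD]
    conv_lhs => rw [← b.sum_repr (D (Fin.tail x))]
    rw [der_sum_apply]
    refine Finset.sum_congr rfl fun i _ => ?_
    rw [hc, mul_comm]
    simp only [Fin.cons_zero, Fin.tail_cons]

/-- product of derivations -/
noncomputable def pr (D : ι → Derivation k A A) : ∀ n : ℕ, (Fin n → ι) → Module.End k A
  | 0, _ => 1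
  | n + 1, s => pr D n (Fin.tail s) * (D (s 0)).toLinearMap

theorem pr_mem (D : ι → Derivation k A A) : ∀ (n : ℕ) (s : Fin n → ι), pr D n s ∈ K k A (n + 1)
  | 0, _ => by
    change (1 : Module.End k A) ∈ _
    rw [← Lm_one]
    exact Lm_mem 1
  | n + 1, s => mul_der_mem _ _ (pr_mem D n _)

theorem pr_list (D : ι → Derivation k A A) : ∀ (n : ℕ) (s : Fin n → ι),
    ∃ L : List (Derivation k A A), L.length = n ∧ pr D n s = (L.map Derivation.toLinearMap).prod
  | 0, _ => ⟨[], rfl, rfl⟩
  | n + 1, s => by
    obtain ⟨L, h1, h2⟩ := pr_list D n (Fin.tail s)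
    refine ⟨L ++ [D (s 0)], by simp [h1], ?_⟩
    change pr D n (Fin.tail s) * _ = _
    rw [h2]
    simp

/-- the operator with coefficients `c` -/
noncomputable def Qop (D : ι → Derivation k A A) {n : ℕ} (c : (Fin n → ι) → A) :
    Module.End k A := ∑ s, c s • pr D n s

theorem Qop_mem (D : ι → Derivation k A A) {n : ℕ} (c : (Fin n → ι) → A) :
    Qop D c ∈ K k A (n + 1) :=
  Submodule.sum_mem _ fun s _ => Submodule.smul_mem _ _ (pr_mem D n s)

theorem Qop_succ (D : ι → Derivation k A A) {n : ℕ} (c : (Fin (n + 1) → ι) → A) :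
    Qop D c = ∑ i, Qop D (fun s => c (Fin.cons i s)) * (D i).toLinearMap := by
  unfold Qop
  rw [← (Fin.consEquiv (fun _ => ι)).sum_comp, Fintype.sum_prod_type]
  refine Finset.sum_congr rfl fun i _ => ?_
  rw [Finset.sum_mul]
  refine Finset.sum_congr rfl fun s _ => ?_
  change c (Fin.cons i s) • (pr D n (Fin.tail (Fin.cons i s : Fin (n + 1) → ι)) *
    (D ((Fin.cons i s : Fin (n + 1) → ι) 0)).toLinearMap) = _
  rw [Fin.tail_cons, Fin.cons_zero, smul_eq_Lm, smul_eq_Lm, mul_assoc]

/-- the multiset of values -/
def ms {n : ℕ} (s : Fin n → ι) : Multiset ι := ∑ j, {s j}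

theorem ms_insertNth {n : ℕ} (j : Fin (n + 1)) (i : ι) (s : Fin n → ι) :
    ms (j.insertNth i s : Fin (n + 1) → ι) = {i} + ms s := by
  unfold ms
  rw [Fin.sum_univ_succAbove _ j]
  simp only [Fin.insertNth_apply_same, Fin.insertNth_apply_succAbove]

theorem ms_cons {n : ℕ} (i : ι) (s : Fin n → ι) :
    ms (Fin.cons i s : Fin (n + 1) → ι) = {i} + ms s := by
  rw [← ms_insertNth 0, Fin.insertNth_zero']

theorem card_ms {n : ℕ} (s : Fin n → ι) : Multiset.card (ms s) = n := by
  unfold ms
  rw [Multiset.card_sum]
  simp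

theorem ms_surj : ∀ (n : ℕ) (m : Multiset ι), Multiset.card m = n → ∃ s : Fin n → ι, ms s = m
  | 0, m, h => ⟨Fin.elim0, by rw [Multiset.card_eq_zero.1 h]; rfl⟩
  | n + 1, m, h => by
    obtain ⟨i, m', rfl, h'⟩ := Multiset.card_eq_succ_iff.1 h
    obtain ⟨s, rfl⟩ := ms_surj n m' h'
    exact ⟨Fin.cons i s, by rw [ms_cons, Multiset.singleton_add]⟩

theorem exists_perm {n : ℕ} {s s' : Fin n → ι} (h : ms s = ms s') :
    ∃ σ : Equiv.Perm (Fin n), s' = s ∘ σ := by
  have h1 : ∀ (s : Fin n → ι) (a : ι), Fintype.card {j // s j = a} = (ms s).count a := by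
    intro s a
    unfold ms
    rw [Multiset.count_sum', Fintype.card_subtype, Finset.card_filter]
    refine Finset.sum_congr rfl fun j _ => ?_
    rw [Multiset.count_singleton]
    simp only [eq_comm]
  refine ⟨Equiv.ofFiberEquiv (f := s') (g := s) fun a =>
    Fintype.equivOfCardEq (by rw [h1, h1, h]), funext fun j => ?_⟩
  exact (Equiv.ofFiberEquiv_map _ j).symm

/-- symmetric coefficients -/
def Inv {n : ℕ} (c : (Fin n → ι) → A) : Prop := ∀ s s', ms s = ms s' → c s = c s'

theorem sym_Qop (D : ι → Derivation k A A) : ∀ (n : ℕ) (c : (Fin n → ι) → A), Inv c →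
    ∀ x, sym (Qop D c) x = (n.factorial : A) * th D c x
  | 0, c, _, x => by
    unfold sym Qop th
    simp [pr]
  | n + 1, c, hc, x => by
    have h1 : ∀ i, Inv fun s => c (Fin.cons i s) := fun i s s' h =>
      hc _ _ (by rw [ms_cons, ms_cons, h])
    have h2 : ∀ (i : ι) (j : Fin (n + 1)),
        rho k A (∏ l ∈ univ.erase j, dl k (x l)) (Qop D fun s => c (Fin.cons i s)) =
          Lm k ((n.factorial : A) *
            th D (fun s => c (j.insertNth i s)) (fun l => x (j.succAbove l))) := by
      intro i j
      have h3 : ∏ l ∈ univ.erase j, dl k (x l) = ∏ l : Fin n, dl k (x (j.succAbove l)) := by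
        rw [Fin.univ_succAbove n j, Finset.erase_cons, Finset.prod_map]
        rfl
      rw [h3, rho_eq_sym (Qop_mem D _), sym_Qop D n _ (h1 i)]
      congr 3
      funext s
      exact hc _ _ (by rw [ms_cons, ms_insertNth])
    have h4 : ∀ i : ι, rho k A (∏ l, dl k (x l)) (Qop D fun s => c (Fin.cons i s)) = 0 := by
      intro i
      refine Qop_mem D _ _ ?_
      have h := prod_mem (k := k) x univ
      rwa [Finset.card_univ, Fintype.card_fin] at h
    unfold sym
    rw [Qop_succ, map_sum, LinearMap.sum_apply]
    simp only [rho_prod_mul, h4, h2, zero_mul, zero_add, LinearMap.sum_apply,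
      Module.End.mul_apply, LinearMap.mulLeft_apply, mul_one]
    rw [Finset.sum_comm]
    have h5 : ∀ j : Fin (n + 1), ∑ i, (n.factorial : A) *
        th D (fun s => c (j.insertNth i s)) (fun l => x (j.succAbove l)) * D i (x j) =
        (n.factorial : A) * th D c x := by
      intro j
      rw [th_succAbove D c x j, Finset.mul_sum]
      exact Finset.sum_congr rfl fun i _ => by ring
    rw [Finset.sum_congr rfl fun j _ => h5 j, Finset.sum_const, Finset.card_univ,
      Fintype.card_fin, nsmul_eq_mul, Nat.factorial_succ]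
    push_cast
    ring

theorem sym_sub {n : ℕ} (P Q : Module.End k A) (x : Fin n → A) :
    sym (P - Q) x = sym P x - sym Q x := by
  unfold sym
  rw [map_sub]
  rfl

theorem decomp (b : Module.Basis ι A (Derivation k A A)) {n : ℕ}
    (hu : IsUnit (n.factorial : A)) {P : Module.End k A} (hP : P ∈ K k A (n + 1)) :
    ∃ c : (Fin n → ι) → A, Inv c ∧ P - Qop b c ∈ K k A n := by
  obtain ⟨c, hc⟩ := th_exists b n (sym P) fun x i => sym_der hP x i
  have h1 : Inv c := by
    intro s s' h
    obtain ⟨σ, rfl⟩ := exists_perm h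
    have h2 := th_uniq b n (fun t => c t - c (t ∘ σ)) fun x => ?_
    · exact sub_eq_zero.1 (congrFun h2 s)
    · have h3 := sym_perm P x σ
      rw [hc, hc] at h3
      unfold th at h3 ⊢
      simp only [sub_mul, Finset.sum_sub_distrib]
      rw [← h3, sub_eq_zero, ← (Equiv.arrowCongr σ.symm (Equiv.refl ι)).sum_comp]
      refine Finset.sum_congr rfl fun t _ => ?_
      rw [← Equiv.prod_comp σ fun j => b (t j) (x j)]
      rfl
  obtain ⟨u, hu⟩ := hu.exists_right_inv
  have h4 : Inv fun s => u * c s := fun s s' h => congrArg (u * ·) (h1 s s' h)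
  refine ⟨fun s => u * c s, h4, mem_K_of_sym (sub_mem hP (Qop_mem b _)) fun x => ?_⟩
  rw [sym_sub, sym_Qop b n _ h4, hc]
  unfold th
  simp only [mul_assoc, ← Finset.mul_sum]
  rw [← mul_assoc, hu, one_mul, sub_self]

theorem Qop_inj (b : Module.Basis ι A (Derivation k A A)) {n : ℕ}
    (hu : IsUnit (n.factorial : A)) {c : (Fin n → ι) → A} (hc : Inv c) (h : Qop b c ∈ K k A n) :
    c = 0 := by
  refine th_uniq b n c fun x => ?_
  have h1 := sym_eq_zero h x
  rw [sym_Qop b n c hc] at h1
  exact hu.mul_right_eq_zero.1 h1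

theorem list_mem (L : List (Derivation k A A)) :
    (L.map Derivation.toLinearMap).prod ∈ K k A (L.length + 1) := by
  induction L using List.reverseRecOn with
  | nil =>
    change (1 : Module.End k A) ∈ _
    rw [← Lm_one]
    exact Lm_mem 1
  | append_singleton L D ih =>
    rw [List.map_append, List.prod_append, List.length_append]
    simpa using mul_der_mem D _ ih

/-- **differential operators are generated by derivations** -/
theorem K_eq_span (b : Module.Basis ι A (Derivation k A A))
    (hu : ∀ n : ℕ, IsUnit (n.factorial : A)) (n : ℕ) :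
    K k A (n + 1) = Submodule.span A (derProducts k A n) := by
  apply le_antisymm
  · have hQ : ∀ (n : ℕ) (c : (Fin n → ι) → A), Qop b c ∈ Submodule.span A (derProducts k A n) := by
      intro n c
      refine Submodule.sum_mem _ fun s _ => Submodule.smul_mem _ _ (Submodule.subset_span ?_)
      obtain ⟨L, h1, h2⟩ := pr_list b n s
      exact ⟨L, h1.le, h2⟩
    induction n with
    | zero =>
      intro P hP
      obtain ⟨c, _, h⟩ := decomp b (hu 0) hP
      rw [mem_K_zero, sub_eq_zero] at h
      rw [h]
      exact hQ 0 c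
    | succ n ih =>
      intro P hP
      obtain ⟨c, _, h⟩ := decomp b (hu (n + 1)) hP
      have h1 : P - Qop b c ∈ Submodule.span A (derProducts k A (n + 1)) := by
        refine Submodule.span_mono ?_ (ih h)
        rintro R ⟨L, h1, h2⟩
        exact ⟨L, h1.trans (Nat.le_succ n), h2⟩
      have h2 := add_mem h1 (hQ (n + 1) c)
      rwa [sub_add_cancel] at h2
  · rw [Submodule.span_le]
    rintro P ⟨L, h1, rfl⟩
    exact K_mono (Nat.succ_le_succ h1) (list_mem L)

/-- **a basis** -/
theorem K_basis (b : Module.Basis ι A (Derivation k A A))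
    (hu : ∀ n : ℕ, IsUnit (n.factorial : A)) (n : ℕ) :
    ∃ (α : Type) (_ : Fintype α) (v : α → Module.End k A),
      Fintype.card α = ∑ m ∈ range n, (Fintype.card ι).multichoose m ∧
      LinearIndependent A v ∧ Submodule.span A (Set.range v) = K k A n := by
  induction n with
  | zero =>
    refine ⟨Empty, inferInstance, Empty.elim, by simp, linearIndependent_empty_type, ?_⟩
    rw [Set.range_eq_empty, Submodule.span_empty, eq_comm, eq_bot_iff]
    intro P hP
    exact mem_K_zero.1 hP
  | succ n ih =>
    obtain ⟨α, _, v, h1, h2, h3⟩ := ih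
    let w : Sym ι n → Module.End k A := fun t =>
      Qop b fun s : Fin n → ι => if ms s = t.1 then 1 else 0
    have hw : ∀ g : Sym ι n → A, ∑ t, g t • w t =
        Qop b fun s : Fin n → ι => g ⟨ms s, card_ms s⟩ := by
      intro g
      simp only [w, Qop, Finset.smul_sum, smul_smul]
      rw [Finset.sum_comm]
      refine Finset.sum_congr rfl fun s _ => ?_
      rw [← Finset.sum_smul, Finset.sum_eq_single ⟨ms s, card_ms s⟩]
      · simp
      · intro t _ ht
        rw [if_neg fun h => ht (Subtype.ext h.symm), mul_zero]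
      · intro h
        exact absurd (mem_univ _) h
    have hz : ∀ g : Sym ι n → A, ∑ t, g t • w t ∈ K k A n → g = 0 := by
      intro g hg
      rw [hw] at hg
      have h4 := Qop_inj b (hu n) (fun s s' h => by simp only [h]) hg
      funext t
      obtain ⟨s, hs⟩ := ms_surj n t.1 t.2
      have h5 := congrFun h4 s
      have h6 : t = ⟨ms s, card_ms s⟩ := Subtype.ext hs.symm
      rw [h6]
      exact h5
    refine ⟨α ⊕ Sym ι n, inferInstance, Sum.elim v w, ?_, h2.sum_type ?_ ?_, ?_⟩
    · rw [Fintype.card_sum, h1, Finset.sum_range_succ, Sym.card_sym_eq_multichoose]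
    · refine Fintype.linearIndependent_iff.2 fun g hg t => ?_
      exact congrFun (hz g (hg ▸ zero_mem _)) t
    · rw [h3, Submodule.disjoint_def]
      intro P hP hP'
      obtain ⟨g, rfl⟩ := (Submodule.mem_span_range_iff_exists_fun A).1 hP'
      rw [hz g hP]
      simp
    · rw [Set.Sum.elim_range, Submodule.span_union, h3]
      apply le_antisymm
      · refine sup_le (K_mono (Nat.le_succ n)) ?_
        rw [Submodule.span_le]
        rintro _ ⟨t, rfl⟩
        exact Qop_mem b _
      · intro P hP
        obtain ⟨c, hc, h⟩ := decomp b (hu n) hP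
        have h4 : Qop b c ∈ Submodule.span A (Set.range w) := by
          refine (Submodule.mem_span_range_iff_exists_fun A).2
            ⟨fun t => c (ms_surj n t.1 t.2).choose, ?_⟩
          rw [hw]
          congr 1
          funext s
          exact hc _ _ (ms_surj n (ms s) (card_ms s)).choose_spec
        have h5 := Submodule.add_mem_sup h h4
        rwa [sub_add_cancel] at h5

end Vale.Agent.N266B
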