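import Vale.Agent.N266B.PBW

/-!
P266 (helper70): an ideal which is stable under all derivations.
-/

set_option linter.all false

namespace Vale.Agent.N266B

open Finset

variable {k : Type*} {A : Type*} [CommRing k] [CommRing A] [Algebra k A]

/-- pairs of differentials with a twisted action -/
def Tw (_ : Derivation k A A) : Type _ := Ω[A⁄k] × Ω[A⁄k]

noncomputable instance (D : Derivation k A A) : AddCommGroup (Tw D) :=
  inferInstanceAs (AddCommGroup (Ω[A⁄k] × Ω[A⁄k]))

noncomputable instance (D : Derivation k A A) : Module k (Tw D) :=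
  inferInstanceAs (Module k (Ω[A⁄k] × Ω[A⁄k]))

noncomputable instance (D : Derivation k A A) : Module A (Tw D) where
  smul a m := (a • m.1, a • m.2 + D a • m.1)
  one_smul m := by
    change ((1 : A) • m.1, (1 : A) • m.2 + D 1 • m.1) = m
    simp only [one_smul, Derivation.map_one_eq_zero, zero_smul, add_zero]
    rfl
  mul_smul a b m := by
    change ((a * b) • m.1, (a * b) • m.2 + D (a * b) • m.1) =
      (a • b • m.1, a • (b • m.2 + D b • m.1) + D a • b • m.1)
    refine Prod.ext (mul_smul _ _ _) ?_
    simp only [Derivation.leibniz, smul_eq_mul]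
    module
  smul_zero a := by
    change (a • (0 : Ω[A⁄k]), a • (0 : Ω[A⁄k]) + D a • (0 : Ω[A⁄k])) = (0, 0)
    simp
  smul_add a m n := by
    change (a • (m.1 + n.1), a • (m.2 + n.2) + D a • (m.1 + n.1)) =
      (a • m.1 + a • n.1, (a • m.2 + D a • m.1) + (a • n.2 + D a • n.1))
    refine Prod.ext (smul_add _ _ _) ?_
    module
  add_smul a b m := by
    change ((a + b) • m.1, (a + b) • m.2 + D (a + b) • m.1) =
      (a • m.1 + b • m.1, (a • m.2 + D a • m.1) + (b • m.2 + D b • m.1))
    refine Prod.ext (add_smul _ _ _) ?_
    simp only [map_add]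
    module
  zero_smul m := by
    change ((0 : A) • m.1, (0 : A) • m.2 + D 0 • m.1) = (0, 0)
    simp

instance (D : Derivation k A A) : IsScalarTower k A (Tw D) where
  smul_assoc c a m := by
    change ((c • a) • m.1, (c • a) • m.2 + D (c • a) • m.1) =
      (c • a • m.1, c • (a • m.2 + D a • m.1))
    refine Prod.ext (smul_assoc _ _ _) ?_
    simp only [Derivation.map_smul, smul_assoc, smul_add]

/-- the derivation into the twisted module -/
noncomputable def twDer (D : Derivation k A A) : Derivation k A (Tw D) :=
  Derivation.mk'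
    { toFun := fun x => (KaehlerDifferential.D k A x, KaehlerDifferential.D k A (D x))
      map_add' := fun x y => by
        change _ = (KaehlerDifferential.D k A x + KaehlerDifferential.D k A y,
          KaehlerDifferential.D k A (D x) + KaehlerDifferential.D k A (D y))
        simp only [map_add]
      map_smul' := fun c x => by
        change _ = (c • KaehlerDifferential.D k A x, c • KaehlerDifferential.D k A (D x))
        simp only [Derivation.map_smul] }
    fun a b => by
      change (KaehlerDifferential.D k A (a * b), KaehlerDifferential.D k A (D (a * b))) =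
        (a • KaehlerDifferential.D k A b + b • KaehlerDifferential.D k A a,
          (a • KaehlerDifferential.D k A (D b) + D a • KaehlerDifferential.D k A b) +
          (b • KaehlerDifferential.D k A (D a) + D b • KaehlerDifferential.D k A a))
      refine Prod.ext (Derivation.leibniz _ _ _) ?_
      simp only [Derivation.leibniz, smul_eq_mul, map_add]
      module

theorem kaehler_ind {p : Ω[A⁄k] → Prop} (h1 : ∀ x, p (KaehlerDifferential.D k A x)) (h0 : p 0)
    (h2 : ∀ u v, p u → p v → p (u + v)) (h3 : ∀ (a : A) u, p u → p (a • u)) (w : Ω[A⁄k]) :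
    p w := by
  have hw : w ∈ Submodule.span A (Set.range (KaehlerDifferential.D k A)) := by
    rw [KaehlerDifferential.span_range_derivation]
    trivial
  induction hw using Submodule.span_induction with
  | mem w hw =>
    obtain ⟨a, rfl⟩ := hw
    exact h1 a
  | zero => exact h0
  | add x y _ _ hx hy => exact h2 _ _ hx hy
  | smul c x _ hx => exact h3 _ _ hx

/-- the Lie derivative on differentials -/
theorem exists_lie (D : Derivation k A A) : ∃ L : Ω[A⁄k] → Ω[A⁄k],
    (∀ u v, L (u + v) = L u + L v) ∧ (∀ (a : A) u, L (a • u) = a • L u + D a • u) ∧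
    ∀ x, L (KaehlerDifferential.D k A x) = KaehlerDifferential.D k A (D x) := by
  have h1 : ∀ w, ((twDer D).liftKaehlerDifferential w).1 = w := by
    refine kaehler_ind (fun x => ?_) ?_ (fun u v hu hv => ?_) fun a u hu => ?_
    · rw [Derivation.liftKaehlerDifferential_comp_D]
      rfl
    · rw [map_zero]
      rfl
    · rw [map_add]
      change ((twDer D).liftKaehlerDifferential u).1 + ((twDer D).liftKaehlerDifferential v).1 = _
      rw [hu, hv]
    · rw [map_smul]
      change a • ((twDer D).liftKaehlerDifferential u).1 = _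
      rw [hu]
  refine ⟨fun w => ((twDer D).liftKaehlerDifferential w).2, fun u v => ?_, fun a u => ?_,
    fun x => ?_⟩
  · simp only [map_add]
    rfl
  · simp only [map_smul]
    change a • ((twDer D).liftKaehlerDifferential u).2 +
      D a • ((twDer D).liftKaehlerDifferential u).1 = _
    rw [h1]
  · simp only [Derivation.liftKaehlerDifferential_comp_D]
    rfl

theorem torsion_of_dual {M : Type*} [AddCommGroup M] [Module A M] [IsDomain A]
    [Module.FinitePresentation A M] (w : M) (h : ∀ φ : M →ₗ[A] A, φ w = 0) :
    ∃ a : A, a ≠ 0 ∧ a • w = 0 := by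
  let F := FractionRing A
  let M' := LocalizedModule (nonZeroDivisors A) M
  let f : M →ₗ[A] M' := LocalizedModule.mkLinearMap (nonZeroDivisors A) M
  have h1 : f w = 0 := by
    refine (Module.forall_dual_apply_eq_zero_iff F (f w)).1 fun ψ => ?_
    obtain ⟨φ, s, hs⟩ := Module.FinitePresentation.exists_lift_of_isLocalizedModule
      (nonZeroDivisors A) (Algebra.linearMap A F) (ψ.restrictScalars A ∘ₗ f)
    have h2 := LinearMap.congr_fun hs w
    simp only [LinearMap.comp_apply, h φ, map_zero, LinearMap.smul_apply,
      LinearMap.restrictScalars_apply] at h2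
    rw [Submonoid.smul_def, Algebra.smul_def] at h2
    rcases mul_eq_zero.1 h2.symm with h3 | h3
    · exact absurd ((IsFractionRing.injective A F) (h3.trans (map_zero _).symm))
        (nonZeroDivisors.ne_zero s.2)
    · exact h3
  obtain ⟨s, hs⟩ := (IsLocalizedModule.eq_zero_iff (nonZeroDivisors A) f).1 h1
  exact ⟨s, nonZeroDivisors.ne_zero s.2, hs⟩

/-- a singular surface with free tangent sheaf has a proper nonzero ideal which is stable under all
derivations -/
theorem exists_stable [IsDomain A] [IsNoetherianRing A] [Module.Finite A Ω[A⁄k]]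
    (b : Module.Basis (Fin 2) A (Derivation k A A)) (hnp : ¬ Module.Projective A Ω[A⁄k]) :
    ∃ I : Ideal A, I ≠ ⊥ ∧ I ≠ ⊤ ∧ ∀ D : Derivation k A A, ∀ a ∈ I, D a ∈ I := by
  let ev : Ω[A⁄k] →ₗ[A] (Fin 2 → A) := LinearMap.pi fun i => (b i).liftKaehlerDifferential
  have hev : ∀ x i, ev (KaehlerDifferential.D k A x) i = b i x := fun x i =>
    Derivation.liftKaehlerDifferential_comp_D _ _
  let I : Ideal A :=
    { carrier := {a | (∀ v, a • v ∈ LinearMap.range ev) ∧ ∀ w, ev w = 0 → a • w = 0}
      add_mem' := fun {a c} ha hc => ⟨fun v => by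
          rw [add_smul]
          exact add_mem (ha.1 v) (hc.1 v), fun w hw => by
          rw [add_smul, ha.2 w hw, hc.2 w hw, add_zero]⟩
      zero_mem' := ⟨fun v => by
          rw [zero_smul]
          exact zero_mem _, fun w _ => zero_smul _ _⟩
      smul_mem' := fun c a ha => ⟨fun v => by
          rw [smul_eq_mul, mul_smul]
          exact Submodule.smul_mem _ _ (ha.1 v), fun w hw => by
          rw [smul_eq_mul, mul_smul, ha.2 w hw, smul_zero]⟩ }
  have hall : ∀ (E : Derivation k A A) w, E.liftKaehlerDifferential w =
      ∑ l, b.repr E l * ev w l := by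
    intro E
    refine kaehler_ind (fun x => ?_) ?_ (fun u v hu hv => ?_) fun a u hu => ?_
    · rw [Derivation.liftKaehlerDifferential_comp_D]
      conv_lhs => rw [← b.sum_repr E]
      rw [der_sum_apply]
      simp only [hev]
    · simp
    · simp only [map_add, hu, hv, Pi.add_apply, mul_add, Finset.sum_add_distrib]
    · simp only [map_smul, hu, Pi.smul_apply, smul_eq_mul, Finset.mul_sum]
      exact Finset.sum_congr rfl fun l _ => by ring
  refine ⟨I, ?_, ?_, ?_⟩
  · -- nonzero
    have hb := Fintype.linearIndependent_iff.1 b.linearIndependent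
    obtain ⟨x, hx⟩ : ∃ x, b 0 x ≠ 0 := by
      by_contra hc
      exact b.ne_zero 0 (Derivation.ext fun x => not_not.1 fun h => hc ⟨x, h⟩)
    obtain ⟨y, hy⟩ : ∃ y, b 0 x * b 1 y - b 1 x * b 0 y ≠ 0 := by
      by_contra hc
      refine hx (hb ![-b 1 x, b 0 x] (Derivation.ext fun y => ?_) 1)
      have h1 : b 0 x * b 1 y - b 1 x * b 0 y = 0 := not_not.1 fun h => hc ⟨y, h⟩
      simp only [Fin.sum_univ_two, Matrix.cons_val_zero, Matrix.cons_val_one,
        Derivation.add_apply, Derivation.smul_apply, smul_eq_mul, Derivation.zero_apply]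
      linear_combination h1
    have h1 : ∀ v : Fin 2 → A, (b 0 x * b 1 y - b 1 x * b 0 y) • v ∈ LinearMap.range ev := by
      intro v
      refine ⟨(v 0 * b 1 y - v 1 * b 0 y) • KaehlerDifferential.D k A x +
        (v 1 * b 0 x - v 0 * b 1 x) • KaehlerDifferential.D k A y, funext fun i => ?_⟩
      simp only [map_add, map_smul, Pi.add_apply, Pi.smul_apply, hev, smul_eq_mul]
      fin_cases i
      · simp only [Fin.zero_eta]
        ring
      · simp only [Fin.mk_one]
        ring
    have hfp : Module.FinitePresentation A Ω[A⁄k] := Module.finitePresentation_of_finite A _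
    have h2 : Module.IsTorsion A (LinearMap.ker ev) := by
      intro w
      obtain ⟨a, ha, haw⟩ := torsion_of_dual w.1 fun φ => by
        have h3 : φ = (φ.compDer (KaehlerDifferential.D k A)).liftKaehlerDifferential := by
          refine Derivation.liftKaehlerDifferential_unique _ _ (Derivation.ext fun z => ?_)
          change φ _ = Derivation.liftKaehlerDifferential _ (KaehlerDifferential.D k A z)
          rw [Derivation.liftKaehlerDifferential_comp_D]
          rfl
        have h4 : ev w.1 = 0 := w.2
        rw [h3, hall, h4]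
        simp
      exact ⟨⟨a, mem_nonZeroDivisors_of_ne_zero ha⟩, Subtype.ext haw⟩
    obtain ⟨c, hc1, hc2⟩ := Submodule.annihilator_top_inter_nonZeroDivisors h2
    intro hI
    have h3 : c * (b 0 x * b 1 y - b 1 x * b 0 y) ∈ I := by
      refine ⟨fun v => ?_, fun w hw => ?_⟩
      · rw [mul_smul]
        exact Submodule.smul_mem _ _ (h1 v)
      · have h4 := Submodule.mem_annihilator.1 hc1 ⟨w, hw⟩ trivial
        have h5 : c • w = 0 := congrArg Subtype.val h4
        rw [mul_comm, mul_smul, h5, smul_zero]
    rw [hI] at h3
    exact mul_ne_zero (nonZeroDivisors.ne_zero hc2) hy h3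
  · -- proper
    intro hI
    have h1 : (1 : A) ∈ I := hI ▸ trivial
    refine hnp (Module.Projective.of_equiv (LinearEquiv.ofBijective ev ⟨?_, fun v => ?_⟩).symm)
    · rw [injective_iff_map_eq_zero]
      intro w hw
      simpa using h1.2 w hw
    · simpa using h1.1 v
  · -- stable
    intro D a ha
    obtain ⟨L, hL1, hL2, hL3⟩ := exists_lie D
    have hL0 : L 0 = 0 := by
      have := hL1 0 0
      simpa using this
    have h1 : ∀ w i, ev (L w) i = D (ev w i) - ∑ l, b.repr ⁅D, b i⁆ l * ev w l := by
      refine kaehler_ind (fun x i => ?_) (fun i => ?_) (fun u v hu hv i => ?_) fun c u hu i => ?_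
      · rw [← hall, hL3, hev, hev, Derivation.liftKaehlerDifferential_comp_D,
          Derivation.commutator_apply]
        ring
      · simp [hL0]
      · simp only [hL1, map_add, Pi.add_apply, hu, hv, mul_add, Finset.sum_add_distrib]
        ring
      · simp only [hL2, map_add, map_smul, Pi.add_apply, Pi.smul_apply, hu, smul_eq_mul,
          Derivation.leibniz, Fin.sum_univ_two]
        ring
    refine ⟨fun v => ?_, fun w hw => ?_⟩
    · obtain ⟨w, hw⟩ := ha.1 v
      obtain ⟨w', hw'⟩ := ha.1 fun i => D (v i) - ∑ l, b.repr ⁅D, b i⁆ l * v l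
      refine ⟨L w - w', funext fun i => ?_⟩
      rw [map_sub, Pi.sub_apply, h1, hw, hw']
      simp only [Pi.smul_apply, smul_eq_mul, Derivation.leibniz, Fin.sum_univ_two]
      ring
    · have h2 : ev (L w) = 0 := funext fun i => by
        rw [h1, hw]
        simp
      have h3 := hL2 a w
      rw [ha.2 w hw, hL0, ha.2 _ h2, zero_add] at h3
      exact h3.symm

end Vale.Agent.N266B
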